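import Vale.Agent.P147.Weights

open MeasureTheory ProbabilityTheory
open scoped ENNReal

namespace Vale.Agent.P147

variable {d : ℕ}

instance (μ : Measure (Row d)) [IsProbabilityMeasure μ] : IsProbabilityMeasure (envLaw μ) := by
  unfold envLaw
  infer_instance

/-- Annealed weight of a list of steps. -/
noncomputable def wt (μ : Measure (Row d)) (l : List (Dir d)) : ℝ≥0∞ :=
  ∫⁻ ω, qw ω 0 l ∂(envLaw μ)

/-- Shift of the environment. -/
def shift (z : Site d) (ω : Env d) : Env d := fun x => ω (x + z)

lemma qw_shift (z : Site d) (ω : Env d) (x : Site d) (l : List (Dir d)) :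
    qw (shift z ω) x l = qw ω (x + z) l := by
  induction l generalizing x with
  | nil => simp
  | cons u l ih =>
    rw [qw_cons, qw_cons, ih, add_right_comm]
    rfl

section law

variable (μ : Measure (Row d)) [IsProbabilityMeasure μ]

lemma measurePreserving_shift (z : Site d) :
    MeasurePreserving (shift z) (envLaw μ) (envLaw μ) := by
  have hm : Measurable (shift z : Env d → Env d) := by
    unfold shift
    exact measurable_pi_lambda _ fun x => measurable_pi_apply _
  refine ⟨hm, ?_⟩
  exact Measure.map_infinitePi_infinitePi_of_inj (P := fun _ : Site d => μ)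
    (f := fun x : Site d => x + z) (add_left_injective z)

lemma lintegral_qw (x : Site d) (l : List (Dir d)) :
    ∫⁻ ω, qw ω x l ∂(envLaw μ) = wt μ l := by
  rw [wt, ← (measurePreserving_shift μ x).lintegral_comp (measurable_qw 0 l)]
  simp only [qw_shift, zero_add]

lemma wt_le_one (l : List (Dir d)) : wt μ l ≤ 1 := by
  calc wt μ l ≤ ∫⁻ _, 1 ∂(envLaw μ) := lintegral_mono fun ω => qw_le_one ω 0 l
    _ = 1 := by simp

@[simp] lemma wt_nil : wt μ [] = 1 := by simp [wt]

lemma wt_append_le_right (a b : List (Dir d)) : wt μ (a ++ b) ≤ wt μ b := by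
  rw [← lintegral_qw μ (0 + dsp a) b, wt]
  refine lintegral_mono fun ω => ?_
  rw [qw_append]
  calc _ ≤ 1 * qw ω (0 + dsp a) b := by gcongr; exact qw_le_one _ _ _
    _ = _ := one_mul _

omit [IsProbabilityMeasure μ] in
lemma wt_append_le_left (a b : List (Dir d)) : wt μ (a ++ b) ≤ wt μ a := by
  rw [wt, wt]
  refine lintegral_mono fun ω => ?_
  rw [qw_append]
  calc _ ≤ qw ω 0 a * 1 := by gcongr; exact qw_le_one _ _ _
    _ = _ := mul_one _

omit [IsProbabilityMeasure μ] in
lemma qw_congr {ω ω' : Env d} {x : Site d} {l : List (Dir d)}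
    (h : ∀ y ∈ exits x l, ω y = ω' y) : qw ω x l = qw ω' x l := by
  induction l generalizing x with
  | nil => simp
  | cons u l ih =>
    rw [qw_cons, qw_cons, h x (by simp), ih]
    intro y hy
    exact h y (by simp [hy])

lemma exists_factor (S : Finset (Site d)) [Nonempty (Row d)] (x : Site d) (l : List (Dir d))
    (hl : exits x l ⊆ S) :
    ∃ F : ((y : S) → Row d) → ℝ≥0∞, Measurable F ∧
      ∀ ω : Env d, qw ω x l = F (fun y : S => ω y) := by
  classical
  let p0 : Row d := Classical.arbitrary _
  let ext : ((y : S) → Row d) → Env d := fun ρ y => if h : y ∈ S then ρ ⟨y, h⟩ else p0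
  refine ⟨fun ρ => qw (ext ρ) x l, ?_, ?_⟩
  · refine (measurable_qw x l).comp ?_
    refine measurable_pi_lambda _ fun y => ?_
    by_cases h : y ∈ S
    · simp only [ext, h, dif_pos]
      exact measurable_pi_apply _
    · simp only [ext, h, dif_neg, not_false_eq_true]
      exact measurable_const
  · intro ω
    refine qw_congr fun y hy => ?_
    simp [ext, hl hy]

lemma lintegral_mul_of_disjoint (x y : Site d) (a b : List (Dir d))
    (h : Disjoint (exits x a) (exits y b)) :
    ∫⁻ ω, qw ω x a * qw ω y b ∂(envLaw μ) = wt μ a * wt μ b := by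
  have : Nonempty (Row d) := nonempty_of_isProbabilityMeasure μ
  obtain ⟨F, hF, hFa⟩ := exists_factor (exits x a) x a subset_rfl
  obtain ⟨G, hG, hGb⟩ := exists_factor (exits y b) y b subset_rfl
  have hind : iIndepFun (fun (i : Site d) (ω : Env d) => ω i) (envLaw μ) :=
    iIndepFun_infinitePi (P := fun _ : Site d => μ) (X := fun _ p => p) (fun _ => measurable_id)
  have h2 := iIndepFun.indepFun_finset (exits x a) (exits y b) h hind
    (fun i => measurable_pi_apply i)
  have h3 := h2.comp hF hG
  rw [← lintegral_qw μ x a, ← lintegral_qw μ y b]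
  have h4 := lintegral_mul_eq_lintegral_mul_lintegral_of_indepFun (measurable_qw x a)
    (measurable_qw y b) (by
      have e1 : (fun ω : Env d => qw ω x a) = F ∘ (fun ω (i : exits x a) => ω i) := by
        funext ω; exact hFa ω
      have e2 : (fun ω : Env d => qw ω y b) = G ∘ (fun ω (i : exits y b) => ω i) := by
        funext ω; exact hGb ω
      rw [e1, e2]
      exact h3)
  exact h4

lemma wt_append {a b : List (Dir d)} (h : Disjoint (exits 0 a) (exits (dsp a) b)) :
    wt μ (a ++ b) = wt μ a * wt μ b := by
  rw [← lintegral_mul_of_disjoint μ 0 (dsp a) a b h, wt]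
  refine lintegral_congr fun ω => ?_
  rw [qw_append, zero_add]

lemma wt_ne_zero (hμ : Elliptic μ) (l : List (Dir d)) : wt μ l ≠ 0 := by
  have hae : ∀ᵐ ω ∂(envLaw μ), ∀ x : Site d, ∀ u : Dir d, 0 < (ω x).1 u := by
    rw [ae_all_iff]
    intro x
    have := (measurePreserving_eval_infinitePi (fun _ : Site d => μ) x).quasiMeasurePreserving
    exact this.ae hμ
  intro h0
  rw [wt, lintegral_eq_zero_iff (measurable_qw 0 l)] at h0
  have : ∀ᵐ ω ∂(envLaw μ), False := by
    filter_upwards [hae, h0] with ω h1 h2
    have h3 : ∀ x, qw ω x l ≠ 0 := by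
      clear h2 h0
      induction l with
      | nil => intro x; simp
      | cons u l ih =>
        intro x
        rw [qw_cons]
        exact mul_ne_zero (by simpa using h1 x u) (ih _)
    exact h3 0 h2
  simp only [Filter.eventually_false_iff_eq_bot, ae_eq_bot] at this
  exact IsProbabilityMeasure.ne_zero (envLaw μ) this

omit [IsProbabilityMeasure μ] in
lemma annealed_cyl (x : Site d) (l : List (Dir d)) :
    annealed μ x (cyl x l) = ∫⁻ ω, qw ω x l ∂(envLaw μ) := by
  simp only [annealed, quenched_cyl]

lemma annealed_cyl' (x : Site d) (l : List (Dir d)) :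
    annealed μ x (cyl x l) = wt μ l := by
  rw [annealed_cyl, lintegral_qw]

omit [IsProbabilityMeasure μ] in
lemma annealed_mono (x : Site d) {A B : Set (ℕ → Site d)} (h : A ⊆ B) :
    annealed μ x A ≤ annealed μ x B :=
  lintegral_mono fun _ => measure_mono h

omit [IsProbabilityMeasure μ] in
lemma annealed_iUnion_le (x : Site d) {ι : Type*} [Countable ι] {A : ι → Set (ℕ → Site d)}
    (hA : ∀ i, MeasurableSet (A i)) :
    annealed μ x (⋃ i, A i) ≤ ∑' i, annealed μ x (A i) := by
  simp only [annealed]
  rw [← lintegral_tsum fun i => (measurable_quenched_apply x (hA i)).aemeasurable]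
  exact lintegral_mono fun ω => measure_iUnion_le _

/-- Two lists of steps are comparable if one starts with the other. -/
def Free (S : Set (List (Dir d))) : Prop :=
  ∀ a ∈ S, ∀ b, a ++ b ∈ S → b = []

lemma cyl_inter {x : Site d} {a b : List (Dir d)} {X : ℕ → Site d} (ha : X ∈ cyl x a)
    (hb : X ∈ cyl x b) (hab : a.length ≤ b.length) : ∃ c, b = a ++ c := by
  induction a generalizing x b X with
  | nil => exact ⟨b, rfl⟩
  | cons u a ih =>
    cases b with
    | nil => simp at hab
    | cons v b =>
      have h1 := ha 1 (by simp)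
      have h2 := hb 1 (by simp)
      have huv : u = v := by
        apply vec_injective
        simp only [List.take_succ_cons, List.take_zero, dsp_cons, dsp_nil, add_zero] at h1 h2
        rw [h1] at h2
        exact add_left_cancel h2
      subst huv
      have ha' : (fun n => X (n + 1)) ∈ cyl (x + vec u) a := by
        intro n hn
        have := ha (n + 1) (by simpa using hn)
        simpa [add_assoc] using this
      have hb' : (fun n => X (n + 1)) ∈ cyl (x + vec u) b := by
        intro n hn
        have := hb (n + 1) (by simpa using hn)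
        simpa [add_assoc] using this
      obtain ⟨c, hc⟩ := ih ha' hb' (by simpa using hab)
      exact ⟨c, by rw [hc]; rfl⟩

lemma cyl_disjoint {S : Set (List (Dir d))} (hS : Free S) {x : Site d} {a b : List (Dir d)}
    (ha : a ∈ S) (hb : b ∈ S) (hab : a ≠ b) : Disjoint (cyl x a) (cyl x b) := by
  rw [Set.disjoint_left]
  intro X h1 h2
  rcases le_total a.length b.length with h | h
  · obtain ⟨c, rfl⟩ := cyl_inter h1 h2 h
    have := hS a ha c hb
    subst this
    simp at hab
  · obtain ⟨c, rfl⟩ := cyl_inter h2 h1 h
    have := hS b hb c ha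
    subst this
    simp at hab

lemma tsum_wt_le_one {S : Set (List (Dir d))} (hS : Free S) : ∑' l : S, wt μ l ≤ 1 := by
  have h1 : ∀ ω : Env d, ∑' l : S, qw ω 0 (l : List (Dir d)) ≤ 1 := by
    intro ω
    simp only [← quenched_cyl]
    rw [← measure_iUnion]
    · exact prob_le_one
    · intro a b hab
      exact cyl_disjoint hS a.2 b.2 (fun h => hab (Subtype.ext h))
    · intro a
      exact measurableSet_cyl _ _
  simp only [wt]
  rw [← lintegral_tsum (f := fun (l : S) (ω : Env d) => qw ω 0 (l : List (Dir d)))
    fun l => (measurable_qw 0 (l : List (Dir d))).aemeasurable]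
  calc _ ≤ ∫⁻ _, 1 ∂(envLaw μ) := lintegral_mono fun ω => h1 ω
    _ = 1 := by simp

end law

end Vale.Agent.P147
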