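import Mathlib.Algebra.Order.Quantale
import Mathlib.Analysis.Complex.ExponentialBounds
import Mathlib.Analysis.Normed.Group.Tannery
import Mathlib.Analysis.PSeries
import Mathlib.Analysis.SpecialFunctions.Log.NegMulLog
import Mathlib.CategoryTheory.Countable
import Mathlib.Data.Finset.Functor
import Mathlib.Data.Int.Star
import Mathlib.Data.Nat.Nth
import Mathlib.LinearAlgebra.Complex.FiniteDimensional
import Mathlib.Order.CompletePartialOrder
import Mathlib.Probability.Independence.InfinitePi
import Mathlib.Tactic
import Mathlib.Topology.Algebra.ProperAction.Basic
import Mathlib.Topology.Separation.CompletelyRegular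

/-! The part of Mathlib that the development of this folder uses. -/
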