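import Vale.Agent.P147.MathlibUsed

/-!
# Random walk in random environment on the integer lattice: basic definitions

Directions, sites, rows of transition probabilities, environments, the iid environment law, the
quenched law of the walk (built with the Ionescu-Tulcea theorem of Mathlib) and the annealed
probability of an event.
-/

open MeasureTheory ProbabilityTheory

namespace Vale.Agent.P147

/-- The `2 d` unit steps: `(i, true)` is `+ e_i` and `(i, false)` is `- e_i`. -/
abbrev Dir (d : ℕ) : Type := Fin d × Bool

/-- Sites of the lattice. -/
abbrev Site (d : ℕ) : Type := Fin d → ℤ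

/-- The step `u` as a vector. -/
def vec {d : ℕ} (u : Dir d) : Site d := Pi.single u.1 (if u.2 then 1 else -1)

/-- Rows: probability vectors on the set of unit steps. -/
abbrev Row (d : ℕ) : Type := stdSimplex ℝ (Dir d)

/-- Environments: a row at every site. -/
abbrev Env (d : ℕ) : Type := Site d → Row d

/-- The law of the iid environment with one-site law `μ`. -/
noncomputable def envLaw {d : ℕ} (μ : Measure (Row d)) : Measure (Env d) :=
  Measure.infinitePi (fun _ : Site d => μ)

/-- Ellipticity: almost surely every step has positive probability. -/
def Elliptic {d : ℕ} (μ : Measure (Row d)) : Prop :=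
  ∀ᵐ p ∂μ, ∀ u : Dir d, 0 < p.1 u

/-- The law of the next position of the walk that stands at `x`, in the environment `ω`. -/
noncomputable def stepLaw {d : ℕ} (ω : Env d) (x : Site d) : Measure (Site d) :=
  ∑ u : Dir d, ENNReal.ofReal ((ω x).1 u) • Measure.dirac (x + vec u)

/-- The one-step transition kernel in the environment `ω`. -/
noncomputable def stepKernel {d : ℕ} (ω : Env d) : Kernel (Site d) (Site d) :=
  Kernel.ofFunOfCountable (stepLaw ω)

instance {d : ℕ} (ω : Env d) : IsMarkovKernel (stepKernel ω) := by
  constructor
  intro x
  constructor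
  change stepLaw ω x Set.univ = 1
  have h := (ω x).2
  simp only [stepLaw, Measure.coe_finsetSum, Finset.sum_apply, Measure.coe_smul, Pi.smul_apply,
    measure_univ, smul_eq_mul, mul_one]
  rw [← ENNReal.ofReal_sum_of_nonneg (fun u _ => h.1 u), h.2, ENNReal.ofReal_one]

/-- The quenched law: the law of the Markov chain started at `x` in the environment `ω`. -/
noncomputable def quenched {d : ℕ} (ω : Env d) (x : Site d) : Measure (ℕ → Site d) :=
  Kernel.trajMeasure (X := fun _ : ℕ => Site d) (Measure.dirac x)
    (fun n => (stepKernel ω).comap (fun h : (i : Finset.Iic n) → Site d => h ⟨n, by simp⟩)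
      (measurable_pi_apply _))

/-- The annealed probability of an event of paths, for the walk started at `x`. -/
noncomputable def annealed {d : ℕ} (μ : Measure (Row d)) (x : Site d) (A : Set (ℕ → Site d)) :
    ENNReal :=
  ∫⁻ ω, quenched ω x A ∂(envLaw μ)

/-- The Euclidean inner product of a site with a real vector. -/
def inner {d : ℕ} (x : Site d) (v : Fin d → ℝ) : ℝ := ∑ i, (x i : ℝ) * v i

/-- The event that the walk escapes in the direction `v`. -/
def Escape {d : ℕ} (v : Fin d → ℝ) : Set (ℕ → Site d) :=
  {X | Filter.Tendsto (fun n => inner (X n) v) Filter.atTop Filter.atTop}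

/-- The set of sites visited up to time `n`. -/
def visited {d : ℕ} (X : ℕ → Site d) (n : ℕ) : Finset (Site d) := (Finset.range (n + 1)).image X

/-- The walk escapes in the direction `v`, and eventually its progress in that direction is at
least a positive constant times the number of sites visited so far. -/
def ThinEscape {d : ℕ} (v : Fin d → ℝ) : Set (ℕ → Site d) :=
  {X | X ∈ Escape v ∧ ∃ c : ℝ, 0 < c ∧
    ∀ᶠ n in Filter.atTop, c * ((visited X n).card : ℝ) ≤ inner (X n) v}

/-- The walk has limiting velocity `w`. -/
def Speed {d : ℕ} (w : Fin d → ℝ) : Set (ℕ → Site d) :=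
  {X | Filter.Tendsto (fun (n : ℕ) (i : Fin d) => (X n i : ℝ) / n) Filter.atTop (nhds w)}

end Vale.Agent.P147
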