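import Vale.Agent.P147.LemmaS

open scoped ENNReal

namespace Vale.Agent.P147

/-- Functions on a group with the convolution product. -/
@[ext] structure Cv (G : Type*) where
  v : G → ℝ≥0∞

namespace Cv

variable {G : Type*} [AddCommGroup G]

instance : Zero (Cv G) := ⟨⟨fun _ => 0⟩⟩

noncomputable instance : Add (Cv G) := ⟨fun f g => ⟨fun z => f.v z + g.v z⟩⟩

noncomputable instance : Mul (Cv G) := ⟨fun f g => ⟨fun z => ∑' y, f.v y * g.v (z - y)⟩⟩

open Classical in
/-- Point mass. -/
noncomputable def pt (a : G) (c : ℝ≥0∞) : Cv G := ⟨fun z => if z = a then c else 0⟩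

noncomputable instance : One (Cv G) := ⟨pt 0 1⟩

@[simp] lemma zero_v (z : G) : (0 : Cv G).v z = 0 := rfl

@[simp] lemma add_v (f g : Cv G) (z : G) : (f + g).v z = f.v z + g.v z := rfl

lemma mul_v (f g : Cv G) (z : G) : (f * g).v z = ∑' y, f.v y * g.v (z - y) := rfl

lemma one_def : (1 : Cv G) = pt 0 1 := rfl

@[simp] lemma pt_v_self (a : G) (c : ℝ≥0∞) : (pt a c).v a = c := by simp [pt]

lemma pt_v_ne {a z : G} (h : z ≠ a) (c : ℝ≥0∞) : (pt a c).v z = 0 := by simp [pt, h]

lemma conv_comm (f g : Cv G) : f * g = g * f := by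
  ext z
  rw [mul_v, mul_v, ← (Equiv.subLeft z).tsum_eq]
  refine tsum_congr fun y => ?_
  simp only [Equiv.subLeft_apply, sub_sub_cancel]
  ring

lemma conv_assoc (f g h : Cv G) : (f * g) * h = f * (g * h) := by
  ext z
  simp only [mul_v]
  calc ∑' y, (∑' x, f.v x * g.v (y - x)) * h.v (z - y)
      = ∑' y, ∑' x, f.v x * (g.v (y - x) * h.v (z - y)) := by
        refine tsum_congr fun y => ?_
        rw [← ENNReal.tsum_mul_right]
        refine tsum_congr fun x => ?_
        ring
    _ = ∑' x, ∑' y, f.v x * (g.v (y - x) * h.v (z - y)) := ENNReal.tsum_comm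
    _ = ∑' x, f.v x * ∑' w, g.v w * h.v (z - x - w) := by
        refine tsum_congr fun x => ?_
        rw [ENNReal.tsum_mul_left]
        congr 1
        rw [← (Equiv.subRight x).tsum_eq (fun w => g.v w * h.v (z - x - w))]
        refine tsum_congr fun y => ?_
        simp only [Equiv.subRight_apply]
        congr 2
        abel

lemma pt_mul_v (a : G) (c : ℝ≥0∞) (f : Cv G) (z : G) : (pt a c * f).v z = c * f.v (z - a) := by
  rw [mul_v, tsum_eq_single a]
  · simp
  · intro y hy
    rw [pt_v_ne hy, zero_mul]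

lemma one_conv (f : Cv G) : 1 * f = f := by
  ext z
  rw [one_def, pt_mul_v]; simp

lemma conv_add (f g h : Cv G) : f * (g + h) = f * g + f * h := by
  ext z
  simp only [mul_v, add_v, mul_add, ENNReal.tsum_add]

lemma conv_zero (f : Cv G) : f * 0 = 0 := by
  ext z
  simp [mul_v]

noncomputable instance : CommSemiring (Cv G) where
  add_assoc := fun f g h => by ext z; simp [add_assoc]
  zero_add := fun f => by ext z; simp
  add_zero := fun f => by ext z; simp
  add_comm := fun f g => by ext z; simp [add_comm]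
  left_distrib := conv_add
  right_distrib := fun f g h => by
    rw [conv_comm, conv_add, conv_comm h f, conv_comm h g]
  zero_mul := fun f => by rw [conv_comm, conv_zero]
  mul_zero := conv_zero
  mul_assoc := conv_assoc
  mul_comm := conv_comm
  one_mul := one_conv
  mul_one := fun f => by rw [conv_comm, one_conv]
  nsmul := nsmulRec

lemma pt_mul_pt (a b : G) (c e : ℝ≥0∞) : pt a c * pt b e = pt (a + b) (c * e) := by
  ext z
  rw [pt_mul_v]
  by_cases h : z = a + b
  · subst h; simp
  · rw [pt_v_ne h, pt_v_ne, mul_zero]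
    intro h2
    exact h (by rw [← h2]; abel)

lemma pt_pow (a : G) (c : ℝ≥0∞) (n : ℕ) : (pt a c : Cv G) ^ n = pt (n • a) (c ^ n) := by
  induction n with
  | zero => simp [one_def]
  | succ n ih => rw [pow_succ, ih, pt_mul_pt, succ_nsmul, pow_succ]

/-- Total mass. -/
noncomputable def mass (f : Cv G) : ℝ≥0∞ := ∑' z, f.v z

lemma mass_mul (f g : Cv G) : mass (f * g) = mass f * mass g := by
  simp only [mass, mul_v]
  rw [ENNReal.tsum_comm, ← ENNReal.tsum_mul_right]
  refine tsum_congr fun y => ?_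
  rw [ENNReal.tsum_mul_left]
  congr 1
  exact (Equiv.subRight y).tsum_eq g.v

lemma mass_add (f g : Cv G) : mass (f + g) = mass f + mass g := by
  simp only [mass, add_v, ENNReal.tsum_add]

lemma mass_pt (a : G) (c : ℝ≥0∞) : mass (pt a c) = c := by
  rw [mass, tsum_eq_single a]
  · simp
  · intro z hz; exact pt_v_ne hz c

lemma mass_one : mass (1 : Cv G) = 1 := mass_pt 0 1

lemma mass_pow (f : Cv G) (n : ℕ) : mass (f ^ n) = mass f ^ n := by
  induction n with
  | zero => simp [mass_one]
  | succ n ih => rw [pow_succ, mass_mul, ih, pow_succ]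

lemma mul_v_le (f g : Cv G) {b : ℝ≥0∞} (hg : ∀ z, g.v z ≤ b) (z : G) :
    (f * g).v z ≤ mass f * b := by
  rw [mul_v, mass, ← ENNReal.tsum_mul_right]
  exact ENNReal.tsum_le_tsum fun y => mul_le_mul' le_rfl (hg _)

lemma natCast_mul_v (n : ℕ) (f : Cv G) (z : G) : ((n : Cv G) * f).v z = n * f.v z := by
  induction n with
  | zero => simp
  | succ n ih => rw [Nat.cast_succ, add_mul, add_v, ih, one_mul, Nat.cast_succ, add_mul, one_mul]

lemma sum_v {ι : Type*} (s : Finset ι) (f : ι → Cv G) (z : G) :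
    (∑ i ∈ s, f i).v z = ∑ i ∈ s, (f i).v z := by
  classical
  induction s using Finset.induction_on with
  | empty => rfl
  | insert a s ha ih => rw [Finset.sum_insert ha, Finset.sum_insert ha, add_v, ih]

end Cv

lemma central_sq (k : ℕ) : k.centralBinom ^ 2 * (2 * k + 1) ≤ 16 ^ k := by
  induction k with
  | zero => simp
  | succ k ih =>
    have h := Nat.succ_mul_centralBinom_succ k
    have h2 : (k + 1) ^ 2 * ((k + 1).centralBinom ^ 2 * (2 * (k + 1) + 1)) ≤
        (k + 1) ^ 2 * 16 ^ (k + 1) := by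
      calc (k + 1) ^ 2 * ((k + 1).centralBinom ^ 2 * (2 * (k + 1) + 1))
          = ((k + 1) * (k + 1).centralBinom) ^ 2 * (2 * k + 3) := by ring
        _ = (k.centralBinom ^ 2 * (2 * k + 1)) * (4 * (2 * k + 1) * (2 * k + 3)) := by
            rw [h]; ring
        _ ≤ 16 ^ k * (4 * (2 * k + 1) * (2 * k + 3)) := by gcongr
        _ ≤ 16 ^ k * (16 * (k + 1) ^ 2) := by
            refine Nat.mul_le_mul le_rfl ?_
            nlinarith
        _ = (k + 1) ^ 2 * 16 ^ (k + 1) := by ring
    exact Nat.le_of_mul_le_mul_left h2 (by positivity)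

lemma choose_sq (m a : ℕ) : m.choose a ^ 2 * (m + 1) ≤ 4 ^ m := by
  have h0 : m.choose a ≤ m.choose (m / 2) := Nat.choose_le_middle a m
  rcases Nat.even_or_odd' m with ⟨k, rfl | rfl⟩
  · have e : 2 * k / 2 = k := by omega
    rw [e] at h0
    calc (2 * k).choose a ^ 2 * (2 * k + 1) ≤ (2 * k).choose k ^ 2 * (2 * k + 1) := by gcongr
      _ ≤ 16 ^ k := central_sq k
      _ = 4 ^ (2 * k) := by rw [pow_mul]; norm_num
  · have e : (2 * k + 1) / 2 = k := by omega
    rw [e] at h0
    have h1 := central_sq (k + 1)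
    have h2 : (k + 1).centralBinom = 2 * (2 * k + 1).choose k := by
      rw [Nat.centralBinom]
      have : 2 * (k + 1) = (2 * k + 1) + 1 := by ring
      rw [this, Nat.choose_succ_succ, Nat.choose_symm_half]
      ring
    rw [h2] at h1
    have h3 : 4 * ((2 * k + 1).choose a ^ 2 * (2 * k + 1 + 1)) ≤ 4 * 4 ^ (2 * k + 1) := by
      calc 4 * ((2 * k + 1).choose a ^ 2 * (2 * k + 1 + 1))
          ≤ 4 * ((2 * k + 1).choose k ^ 2 * (2 * k + 3)) := by
            refine Nat.mul_le_mul le_rfl (Nat.mul_le_mul ?_ (by omega))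
            exact Nat.pow_le_pow_left h0 2
        _ = (2 * (2 * k + 1).choose k) ^ 2 * (2 * (k + 1) + 1) := by ring
        _ ≤ 16 ^ (k + 1) := h1
        _ = 4 * 4 ^ (2 * k + 1) := by
            rw [show (16 : ℕ) = 4 ^ 2 by norm_num, ← pow_mul]; ring
    exact Nat.le_of_mul_le_mul_left h3 (by norm_num)

lemma choose_mul_choose (m a b : ℕ) : m.choose a * m.choose b * (m + 1) ≤ 4 ^ m := by
  have h1 := choose_sq m a
  have h2 := choose_sq m b
  rcases le_total (m.choose a) (m.choose b) with h | h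
  · calc m.choose a * m.choose b * (m + 1) ≤ m.choose b * m.choose b * (m + 1) := by gcongr
      _ = m.choose b ^ 2 * (m + 1) := by ring
      _ ≤ _ := h2
  · calc m.choose a * m.choose b * (m + 1) ≤ m.choose a * m.choose a * (m + 1) := by gcongr
      _ = m.choose a ^ 2 * (m + 1) := by ring
      _ ≤ _ := h1

namespace Cv

variable {G : Type*} [AddCommGroup G]

lemma one_add_pt_pow (g : G) (m : ℕ) :
    (1 + pt g 1 : Cv G) ^ m =
      ∑ a ∈ Finset.range (m + 1), ((m.choose a : ℕ) : Cv G) * pt (a • g) 1 := by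
  rw [add_comm, add_pow]
  refine Finset.sum_congr rfl fun a _ => ?_
  rw [pt_pow, one_pow, one_pow, mul_one, mul_comm]

/-- The uniform bound for the powers of the cube. -/
lemma cube_pow_le {ζ g₁ g₂ : G} (c : ℝ≥0∞)
    (hind : ∀ a b a' b' : ℕ, a • g₁ + b • g₂ = a' • g₁ + b' • g₂ → a = a' ∧ b = b')
    (m : ℕ) (z : G) :
    ((pt ζ c * ((1 + pt g₁ 1) * (1 + pt g₂ 1))) ^ m).v z ≤ (4 * c) ^ m / (m + 1) := by
  rw [mul_pow, mul_pow, pt_pow, pt_mul_v, one_add_pt_pow, one_add_pt_pow, Finset.sum_mul_sum]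
  have key : ∀ w : G, (∑ a ∈ Finset.range (m + 1), ∑ b ∈ Finset.range (m + 1),
      ((m.choose a : ℕ) : Cv G) * pt (a • g₁) 1 * (((m.choose b : ℕ) : Cv G) * pt (b • g₂) 1)).v w ≤
      4 ^ m / (m + 1) := by
    intro w
    have e : ∀ a b : ℕ, ((m.choose a : ℕ) : Cv G) * pt (a • g₁) 1 *
        (((m.choose b : ℕ) : Cv G) * pt (b • g₂) 1) =
        ((m.choose a * m.choose b : ℕ) : Cv G) * pt (a • g₁ + b • g₂) 1 := by
      intro a b
      calc _ = ((m.choose a : ℕ) : Cv G) * ((m.choose b : ℕ) : Cv G) *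
            (pt (a • g₁) 1 * pt (b • g₂) 1) := by ring
        _ = _ := by rw [pt_mul_pt, mul_one, Nat.cast_mul]
    simp only [e, sum_v, natCast_mul_v]
    rw [← Finset.sum_product']
    have hb : ∀ a b : ℕ, ((m.choose a * m.choose b : ℕ) : ℝ≥0∞) ≤ 4 ^ m / (m + 1) := by
      intro a b
      rw [ENNReal.le_div_iff_mul_le (by simp) (by simp)]
      exact_mod_cast choose_mul_choose m a b
    by_cases hex : ∃ p ∈ Finset.range (m + 1) ×ˢ Finset.range (m + 1), w = p.1 • g₁ + p.2 • g₂
    · obtain ⟨p, hp, rfl⟩ := hex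
      rw [Finset.sum_eq_single_of_mem p hp]
      · rw [pt_v_self, mul_one]
        exact hb _ _
      · intro q _ hq
        rw [pt_v_ne, mul_zero]
        intro h
        have := hind _ _ _ _ h
        exact hq (Prod.ext this.1.symm this.2.symm)
    · rw [Finset.sum_eq_zero]
      · exact zero_le
      · intro p hp
        rw [pt_v_ne, mul_zero]
        intro h
        exact hex ⟨p, hp, h⟩
  calc c ^ m * _ ≤ c ^ m * (4 ^ m / (m + 1)) := by gcongr; exact key _
    _ = (4 * c) ^ m / (m + 1) := by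
      rw [mul_pow, div_eq_mul_inv, div_eq_mul_inv]; ring

/-- Concentration bound for convolution powers of a law that dominates a nondegenerate
two-dimensional cube. -/
theorem concentration (κ : Cv G) (hκ : mass κ = 1) {ζ g₁ g₂ : G} {c : ℝ≥0∞} (hc : c ≠ 0)
    (hdom : ∀ z, (pt ζ c * ((1 + pt g₁ 1) * (1 + pt g₂ 1))).v z ≤ κ.v z)
    (hind : ∀ a b a' b' : ℕ, a • g₁ + b • g₂ = a' • g₁ + b' • g₂ → a = a' ∧ b = b')
    (n : ℕ) (z : G) : (κ ^ n).v z ≤ (1 / (4 * c)) / (n + 1) := by
  set ρ : Cv G := pt ζ c * ((1 + pt g₁ 1) * (1 + pt g₂ 1)) with hρ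
  set κ' : Cv G := ⟨fun z => κ.v z - ρ.v z⟩ with hκ'
  have hsum : κ = κ' + ρ := by
    ext z
    simp only [add_v, hκ']
    rw [tsub_add_cancel_of_le (hdom z)]
  have hmρ : mass ρ = 4 * c := by
    rw [hρ, mass_mul, mass_mul, mass_add, mass_add, mass_pt, mass_pt, mass_pt, mass_one]
    norm_num
    ring
  have hmass : 4 * c + mass κ' = 1 := by
    rw [← hκ, hsum, mass_add, hmρ, add_comm]
  set p' := mass κ' with hp'
  have h4c : 4 * c ≠ 0 := by simpa using hc
  have h4ct : 4 * c ≠ ∞ := by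
    intro h
    rw [h] at hmass
    simp at hmass
  rw [hsum, add_comm κ' ρ, add_pow, sum_v]
  calc ∑ m ∈ Finset.range (n + 1), (ρ ^ m * κ' ^ (n - m) * ((n.choose m : ℕ) : Cv G)).v z
      ≤ ∑ m ∈ Finset.range (n + 1),
          ((n + 1).choose (m + 1) : ℕ) * ((4 * c) ^ m * p' ^ (n - m)) / (n + 1) := by
        refine Finset.sum_le_sum fun m hm => ?_
        rw [mul_comm, natCast_mul_v, mul_comm (ρ ^ m)]
        calc (n.choose m : ℝ≥0∞) * (κ' ^ (n - m) * ρ ^ m).v z
            ≤ (n.choose m : ℝ≥0∞) * (p' ^ (n - m) * ((4 * c) ^ m / (m + 1))) := by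
              gcongr
              rw [hp', ← mass_pow]
              exact mul_v_le _ _ (fun z => cube_pow_le c hind m z) z
          _ = ((n.choose m : ℝ≥0∞) / (m + 1)) * ((4 * c) ^ m * p' ^ (n - m)) := by
              rw [div_eq_mul_inv, div_eq_mul_inv]; ring
          _ = (((n + 1).choose (m + 1) : ℕ) / (n + 1)) * ((4 * c) ^ m * p' ^ (n - m)) := by
              congr 1
              rw [ENNReal.div_eq_div_iff (by simp) (by simp) (by simp) (by simp)]
              have := Nat.add_one_mul_choose_eq n m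
              have h2 : ((n : ℝ≥0∞) + 1) * n.choose m =
                  ((n + 1).choose (m + 1) : ℕ) * ((m : ℝ≥0∞) + 1) := by exact_mod_cast this
              rw [h2]; ring
          _ = _ := by rw [div_eq_mul_inv, div_eq_mul_inv]; ring
    _ = (∑ m ∈ Finset.range (n + 1),
          ((n + 1).choose (m + 1) : ℕ) * ((4 * c) ^ m * p' ^ (n - m))) / (n + 1) := by
        rw [div_eq_mul_inv, Finset.sum_mul]
        rfl
    _ ≤ (1 / (4 * c)) / (n + 1) := by
        gcongr
        rw [ENNReal.le_div_iff_mul_le (Or.inl h4c) (Or.inl h4ct), Finset.sum_mul]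
        calc ∑ m ∈ Finset.range (n + 1),
              (((n + 1).choose (m + 1) : ℕ) * ((4 * c) ^ m * p' ^ (n - m))) * (4 * c)
            = ∑ m ∈ Finset.range (n + 1),
              (4 * c) ^ (m + 1) * p' ^ (n + 1 - (m + 1)) * ((n + 1).choose (m + 1) : ℕ) := by
              refine Finset.sum_congr rfl fun m _ => ?_
              rw [Nat.add_sub_add_right, pow_succ]
              ring
          _ ≤ ∑ m ∈ Finset.range (n + 1 + 1),
              (4 * c) ^ m * p' ^ (n + 1 - m) * ((n + 1).choose m : ℕ) := by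
              rw [Finset.sum_range_succ' _ (n + 1)]
              exact le_self_add
          _ = (4 * c + p') ^ (n + 1) := by rw [add_pow]
          _ = 1 := by rw [hmass, one_pow]

/-- The kernel with increments distributed as `κ` acts on measures by convolution. -/
lemma push_iter_eq (κ : Cv G) (ν : G → ℝ≥0∞) (i : ℕ) :
    (push (fun z y => κ.v (y - z)))^[i] ν = ((⟨ν⟩ : Cv G) * κ ^ i).v := by
  induction i with
  | zero => simp
  | succ i ih =>
    rw [Function.iterate_succ_apply', ih, pow_succ, ← mul_assoc]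
    rfl

lemma push_iter_le (κ : Cv G) {b : ℝ≥0∞} {i : ℕ} (h : ∀ z, (κ ^ i).v z ≤ b) (ν : G → ℝ≥0∞)
    (y : G) : ((push (fun z y => κ.v (y - z)))^[i] ν) y ≤ (∑' z, ν z) * b := by
  rw [push_iter_eq]
  exact mul_v_le _ _ h y

end Cv

end Vale.Agent.P147
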