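import Vale.Agent.P147.MathlibUsed
attribute [-instance] ProperSMul.toContinuousSMul IsTopologicalTorsor.toContinuousSMul IdemSemiring.toCanonicallyOrderedAdd IdemSemiring.toMulLeftMono IdemSemiring.toMulRightMono AddQuantale.instAddLeftMono AddQuantale.instAddRightMono Quantale.instMulLeftMono Quantale.instMulRightMono FiniteDimensional.rclike_to_real IsScalarTower.complexToReal FiniteDimensional.complexToReal

open scoped ENNReal

namespace Vale.Agent.P147

section kernels

variable {S : Type*}

/-- Action of a kernel on functions. -/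
noncomputable def act (P : S → S → ℝ≥0∞) (f : S → ℝ≥0∞) : S → ℝ≥0∞ := fun z => ∑' y, P z y * f y

/-- Action of a kernel on measures. -/
noncomputable def push (P : S → S → ℝ≥0∞) (ν : S → ℝ≥0∞) : S → ℝ≥0∞ := fun y => ∑' z, ν z * P z y

/-- Pairing of measures and functions. -/
noncomputable def pair (ν f : S → ℝ≥0∞) : ℝ≥0∞ := ∑' z, ν z * f z

lemma pair_push (P : S → S → ℝ≥0∞) (ν f : S → ℝ≥0∞) :
    pair (push P ν) f = pair ν (act P f) := by
  simp only [pair, push, ← ENNReal.tsum_mul_right, act, ← ENNReal.tsum_mul_left]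
  rw [ENNReal.tsum_comm]
  refine tsum_congr fun z => tsum_congr fun y => ?_
  ring

lemma pair_mono {ν ν' f f' : S → ℝ≥0∞} (h : ν ≤ ν') (h' : f ≤ f') : pair ν f ≤ pair ν' f' :=
  ENNReal.tsum_le_tsum fun z => mul_le_mul' (h z) (h' z)

lemma pair_add_left (ν ν' f : S → ℝ≥0∞) : pair (ν + ν') f = pair ν f + pair ν' f := by
  simp only [pair, Pi.add_apply, add_mul, ENNReal.tsum_add]

lemma push_add (P Q : S → S → ℝ≥0∞) (ν : S → ℝ≥0∞) :
    push (fun z y => P z y + Q z y) ν = push P ν + push Q ν := by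
  funext y
  simp only [push, mul_add, ENNReal.tsum_add, Pi.add_apply]

lemma push_mono {P Q : S → S → ℝ≥0∞} {ν ν' : S → ℝ≥0∞} (hP : ∀ z y, P z y ≤ Q z y)
    (hν : ν ≤ ν') : push P ν ≤ push Q ν' := fun y =>
  ENNReal.tsum_le_tsum fun z => mul_le_mul' (hν z) (hP z y)

lemma push_iter_mono {P Q : S → S → ℝ≥0∞} {ν : S → ℝ≥0∞} (hP : ∀ z y, P z y ≤ Q z y)
    (i : ℕ) : (push P)^[i] ν ≤ (push Q)^[i] ν := by
  induction i with
  | zero => exact le_rfl
  | succ i ih =>
    rw [Function.iterate_succ_apply', Function.iterate_succ_apply']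
    exact push_mono hP ih

lemma act_mono {P : S → S → ℝ≥0∞} {f g : S → ℝ≥0∞} (h : f ≤ g) : act P f ≤ act P g :=
  fun _ => ENNReal.tsum_le_tsum fun y => mul_le_mul' le_rfl (h y)

lemma pair_push_iter (P : S → S → ℝ≥0∞) (ν f : S → ℝ≥0∞) (i : ℕ) :
    pair ((push P)^[i] ν) f = pair ν ((act P)^[i] f) := by
  induction i generalizing f with
  | zero => rfl
  | succ i ih =>
    rw [Function.iterate_succ_apply', pair_push, ih, ← Function.iterate_succ_apply]

end kernels

/-- Elementary: exponential growth beats linear growth. -/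
lemma exp_beats (A : ℝ) : ∃ s : ℕ, 1 ≤ s ∧ A * (s + 1) < (3 / 2 : ℝ) ^ s := by
  have h := tendsto_pow_const_div_const_pow_of_one_lt 1 (show (1 : ℝ) < 3 / 2 by (clear * -; norm_num))
  have h2 : ∀ᶠ n : ℕ in Filter.atTop, (n : ℝ) ^ 1 / (3 / 2 : ℝ) ^ n < 1 / (2 * |A| + 1) :=
    h.eventually_lt_const (by (clear * -; positivity))
  obtain ⟨s, hs1, hs2⟩ := (h2.and (Filter.eventually_ge_atTop 1)).exists
  refine ⟨s, hs2, ?_⟩
  have hp : (0 : ℝ) < (3 / 2) ^ s := by positivity
  rw [pow_one, div_lt_div_iff₀ hp (by positivity), one_mul] at hs1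
  have hs3 : (1 : ℝ) ≤ s := by exact_mod_cast hs2
  calc A * (s + 1) ≤ |A| * (s + 1) := by gcongr; exact le_abs_self A
    _ ≤ s * (2 * |A| + 1) := by (clear * - hs3; nlinarith [abs_nonneg A])
    _ < _ := hs1

/-- Harmonic sums over dyadic ranges. -/
lemma harmonic_dyadic (k : ℕ) : ∑ i ∈ Finset.range (2 ^ k), 1 / ((i : ℝ) + 1) ≤ k + 1 := by
  induction k with
  | zero => simp only [pow_zero, Finset.range_one, one_div, Finset.sum_singleton, CharP.cast_eq_zero, zero_add, inv_one, Std.le_refl]
  | succ k ih =>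
    have : 2 ^ (k + 1) = 2 ^ k + 2 ^ k := by ring
    rw [this, Finset.sum_range_add]
    have h2 : ∑ i ∈ Finset.range (2 ^ k), 1 / (((2 ^ k + i : ℕ) : ℝ) + 1) ≤ 1 := by
      calc ∑ i ∈ Finset.range (2 ^ k), 1 / (((2 ^ k + i : ℕ) : ℝ) + 1)
          ≤ ∑ i ∈ Finset.range (2 ^ k), 1 / (2 ^ k : ℝ) := by
            refine Finset.sum_le_sum fun i _ => ?_
            apply one_div_le_one_div_of_le (by positivity)
            push_cast
            have : (0 : ℝ) ≤ i := by (clear * -; positivity)
            linarith only []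
        _ = 1 := by
            simp only [Finset.sum_const, Finset.card_range, nsmul_eq_mul]
            push_cast
            field_simp
    push_cast at h2 ⊢
    linarith only [ih, h2]

/-- Purely numerical contradiction at the heart of the argument. -/
lemma numeric {b a : ℕ → ℝ} {Sg D : ℝ} (hb0 : b 0 = 1) (hbnn : ∀ i, 0 ≤ b i)
    (hstep : ∀ p r : ℕ, b (p + r) ≤ b (p + r + 1) + b p / (16 * (r + 1)))
    (ha : ∀ j, 0 ≤ a j) (haS : ∀ j, (j + 1) * a j ≤ Sg)
    (haS2 : ∀ m, ∑ j ∈ Finset.range m, a j ≤ Sg) (hD : 0 ≤ D)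
    (hdec : ∀ m, b m ≤ a m + ∑ i ∈ Finset.range m, D / (i + 1) * a (m - 1 - i)) : False := by
  have hS0 : 0 ≤ Sg := by simpa only [Finset.range_zero, Finset.sum_empty] using haS2 0
  -- geometric lower bound
  have hsum : ∀ p m, b m ≤ b (m + p) + ∑ i ∈ Finset.range p, (b (m + i) - b (m + i + 1)) := by
    intro p m
    induction p with
    | zero => simp only [add_zero, Finset.range_zero, Finset.sum_sub_distrib, Finset.sum_empty, sub_self, Std.le_refl]
    | succ p ih =>
      rw [Finset.sum_range_succ, ← add_assoc m p 1]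
      linarith only [ih]
  have hdy : ∀ s, 3 * b (2 ^ s) ≤ 4 * b (2 ^ (s + 1)) := by
    intro s
    induction s with
    | zero =>
      have h1 := hstep 0 0
      have h2 := hstep 0 1
      norm_num at h1 h2 ⊢
      rw [hb0] at h1 h2
      linarith only [h1, h2]
    | succ s ih =>
      have h1 := hsum (2 ^ (s + 1)) (2 ^ (s + 1))
      have h2 : ∑ i ∈ Finset.range (2 ^ (s + 1)), (b (2 ^ (s + 1) + i) - b (2 ^ (s + 1) + i + 1)) ≤
          b (2 ^ s) / 8 := by
        calc _ ≤ ∑ i ∈ Finset.range (2 ^ (s + 1)), b (2 ^ s) / (16 * 2 ^ s) := by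
              refine Finset.sum_le_sum fun i _ => ?_
              have h3 := hstep (2 ^ s) (2 ^ s + i)
              have e : 2 ^ s + (2 ^ s + i) = 2 ^ (s + 1) + i := by ring
              rw [e] at h3
              have h4 : b (2 ^ s) / (16 * (((2 ^ s + i : ℕ) : ℝ) + 1)) ≤
                  b (2 ^ s) / (16 * 2 ^ s) := by
                apply div_le_div_of_nonneg_left (hbnn _) (by positivity)
                push_cast
                have : (0 : ℝ) ≤ i := by (clear * -; positivity)
                linarith only []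
              linarith only [h3, h4]
          _ = b (2 ^ s) / 8 := by
              simp only [Finset.sum_const, Finset.card_range, nsmul_eq_mul]
              push_cast
              rw [pow_succ]
              field_simp
              ring
      have e2 : 2 ^ (s + 1) + 2 ^ (s + 1) = 2 ^ (s + 1 + 1) := by ring
      rw [e2] at h1
      have := hbnn (2 ^ (s + 1 + 1))
      linarith only [ih, h1, h2, this]
  have hlow : ∀ s, (3 / 4 : ℝ) ^ (s + 1) ≤ b (2 ^ s) := by
    intro s
    induction s with
    | zero =>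
      have h1 := hstep 0 0
      norm_num at h1 ⊢
      rw [hb0] at h1
      linarith only [h1]
    | succ s ih =>
      rw [pow_succ]
      linarith only [ih, hdy s]
  -- choose a scale
  obtain ⟨s, hs1, hs⟩ := exp_beats ((4 / 3) * (Sg * (1 + 2 * D + 2 * D)))
  obtain ⟨r, rfl⟩ : ∃ r, s = r + 1 := ⟨s - 1, by omega⟩
  have h1 := hdec (2 ^ (r + 1))
  have h2 := hlow (r + 1)
  have hup : b (2 ^ (r + 1)) ≤ Sg / 2 ^ (r + 1) * (1 + 2 * D * (r + 1) + 2 * D) := by
    have hm : (0 : ℝ) < 2 ^ (r + 1) := by positivity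
    have ha1 : a (2 ^ (r + 1)) ≤ Sg / 2 ^ (r + 1) := by
      rw [le_div_iff₀ hm]
      have := haS (2 ^ (r + 1))
      push_cast at this
      nlinarith only [this, ha (2 ^ (r + 1))]
    have hsp : ∑ i ∈ Finset.range (2 ^ (r + 1)), D / ((i : ℝ) + 1) * a (2 ^ (r + 1) - 1 - i) ≤
        Sg / 2 ^ (r + 1) * (2 * D * (r + 1) + 2 * D) := by
      have e : 2 ^ (r + 1) = 2 ^ r + 2 ^ r := by ring
      have hr : (0 : ℝ) < 2 ^ r := by positivity
      rw [show Finset.range (2 ^ (r + 1)) = Finset.range (2 ^ r + 2 ^ r) by rw [e],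
        Finset.sum_range_add]
      have p1 : ∑ i ∈ Finset.range (2 ^ r), D / ((i : ℝ) + 1) * a (2 ^ (r + 1) - 1 - i) ≤
          Sg / 2 ^ (r + 1) * (2 * D * (r + 1)) := by
        calc _ ≤ ∑ i ∈ Finset.range (2 ^ r), D / ((i : ℝ) + 1) * (Sg / 2 ^ r) := by
              refine Finset.sum_le_sum fun i hi => ?_
              rw [Finset.mem_range] at hi
              have : a (2 ^ (r + 1) - 1 - i) ≤ Sg / 2 ^ r := by
                rw [le_div_iff₀ hr]
                have h3 := haS (2 ^ (r + 1) - 1 - i)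
                have h4 : (2 ^ r : ℝ) ≤ ((2 ^ (r + 1) - 1 - i : ℕ) : ℝ) + 1 := by
                  have : 2 ^ r ≤ (2 ^ (r + 1) - 1 - i) + 1 := by (clear * - hi; omega)
                  exact_mod_cast this
                nlinarith only [hS0, h4, hr, h3]
              (clear * - this hD; gcongr)
          _ = D * (Sg / 2 ^ r) * ∑ i ∈ Finset.range (2 ^ r), 1 / ((i : ℝ) + 1) := by
              rw [Finset.mul_sum]
              refine Finset.sum_congr rfl fun i _ => ?_
              ring
          _ ≤ D * (Sg / 2 ^ r) * (r + 1) := by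
              gcongr
              exact harmonic_dyadic r
          _ = _ := by
              rw [pow_succ]
              (clear * -; field_simp)
      have p2 : ∑ i ∈ Finset.range (2 ^ r), D / (((2 ^ r + i : ℕ) : ℝ) + 1) *
          a (2 ^ (r + 1) - 1 - (2 ^ r + i)) ≤ Sg / 2 ^ (r + 1) * (2 * D) := by
        calc _ ≤ ∑ i ∈ Finset.range (2 ^ r), D / 2 ^ r * a (2 ^ r - 1 - i) := by
              refine Finset.sum_le_sum fun i hi => ?_
              rw [Finset.mem_range] at hi
              have e1 : 2 ^ (r + 1) - 1 - (2 ^ r + i) = 2 ^ r - 1 - i := by omega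
              rw [e1]
              have := ha (2 ^ r - 1 - i)
              gcongr
              push_cast
              have : (0 : ℝ) ≤ i := by (clear * -; positivity)
              linarith only []
          _ = D / 2 ^ r * ∑ i ∈ Finset.range (2 ^ r), a i := by
              rw [← Finset.mul_sum, Finset.sum_range_reflect]
          _ ≤ D / 2 ^ r * Sg := by
              gcongr
              exact haS2 _
          _ = _ := by
              rw [pow_succ]
              field_simp
      rw [mul_add]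
      exact add_le_add p1 p2
    calc b (2 ^ (r + 1)) ≤ _ := h1
      _ ≤ Sg / 2 ^ (r + 1) + Sg / 2 ^ (r + 1) * (2 * D * (r + 1) + 2 * D) := add_le_add ha1 hsp
      _ = _ := by ring
  have h3 : (3 / 4 : ℝ) ^ (r + 1 + 1) * 2 ^ (r + 1) ≤ Sg * (1 + 2 * D * (r + 1) + 2 * D) := by
    have hm : (0 : ℝ) < 2 ^ (r + 1) := by positivity
    calc _ ≤ b (2 ^ (r + 1)) * 2 ^ (r + 1) := by (clear * - h2; gcongr)
      _ ≤ (Sg / 2 ^ (r + 1) * (1 + 2 * D * (r + 1) + 2 * D)) * 2 ^ (r + 1) := by (clear * - hup; gcongr)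
      _ = _ := by (clear * - hD; field_simp)
  have h4 : (3 / 4 : ℝ) ^ (r + 1 + 1) * 2 ^ (r + 1) = 3 / 4 * (3 / 2) ^ (r + 1) := by
    rw [pow_succ (3 / 4 : ℝ) (r + 1), mul_right_comm, ← mul_pow]
    norm_num
    ring
  rw [h4] at h3
  push_cast at hs
  have hr0 : (0 : ℝ) ≤ r := by (clear * -; positivity)
  have h5 : Sg * (1 + 2 * D * (r + 1) + 2 * D) ≤ Sg * (1 + 2 * D + 2 * D) * (r + 1 + 1) := by
    have : (1 + 2 * D * (r + 1) + 2 * D) ≤ (1 + 2 * D + 2 * D) * (r + 1 + 1) := by nlinarith only [hD]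
    calc _ ≤ Sg * ((1 + 2 * D + 2 * D) * (r + 1 + 1)) := by (clear * - this hS0; gcongr)
      _ = _ := by ring
  linarith only [h3, hs, h5]

section main

variable {S : Type*} [DecidableEq S]

/-- Lemma S: if the far marks are rare and the near marks land in a finite set, then the killed
kernel is not summable somewhere. -/
theorem lemmaS (N DN DF : S → S → ℝ≥0∞)
    (hK1 : ∀ z, ∑' y, (N z y + DN z y + DF z y) = 1)
    {C ε Θ : ℝ≥0∞} (hCtop : C ≠ ∞)
    (hC : ∀ (ν : S → ℝ≥0∞) (i : ℕ) (y : S),
      ((push (fun z y => N z y + DN z y + DF z y))^[i] ν) y ≤ (∑' z, ν z) * (C / (i + 1)))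
    (hΘ : ∑' z, ∑' y, DN z y ≤ Θ) (hΘtop : Θ ≠ ∞)
    (Λ : Finset S) (hΛ : ∀ z y, y ∉ Λ → DN z y = 0)
    (hε : ∑' z, ∑' y, DF z y ≤ ε) (hCε : C * ε ≤ 1 / 16) (z₀ : S) :
    ∃ z ∈ insert z₀ Λ, ∑' i : ℕ, ((act N)^[i] 1) z = ∞ := by
  by_contra hcon
  push Not at hcon
  set P : S → S → ℝ≥0∞ := fun z y => N z y + DN z y with hP
  set K : S → S → ℝ≥0∞ := fun z y => N z y + DN z y + DF z y with hK
  have hPK : ∀ z y, P z y ≤ K z y := fun z y => le_self_add
  let δ : S → ℝ≥0∞ := Pi.single z₀ 1
  set ν : ℕ → S → ℝ≥0∞ := fun i => (push P)^[i] δ with hν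
  set β : ℕ → ℝ≥0∞ := fun i => ∑' z, ν i z with hβ
  have hδ : ∑' z, δ z = 1 := by
    rw [tsum_eq_single z₀]
    · simp [δ]
    · intro z hz
      simp [δ, hz]
  have hβ0 : β 0 = 1 := hδ
  have hνsucc : ∀ i, ν (i + 1) = push P (ν i) := fun i => by
    simp only [hν, Function.iterate_succ_apply']
  have hβpair : ∀ i, β i = pair (ν i) 1 := fun i => by simp only [hβ, pair, Pi.one_apply, mul_one]
  -- one step
  have hone : ∀ i, β i = β (i + 1) + pair (ν i) (act DF 1) := by
    intro i
    rw [hβpair (i + 1), hνsucc, pair_push]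
    simp only [hβ, pair]
    rw [← ENNReal.tsum_add]
    refine tsum_congr fun z => ?_
    rw [← mul_add]
    have : act P 1 z + act DF 1 z = 1 := by
      simp only [act, Pi.one_apply, mul_one]
      rw [← ENNReal.tsum_add, ← hK1 z]
    rw [this, mul_one]
  have hβanti : ∀ i, β (i + 1) ≤ β i := fun i => by
    conv_rhs => rw [hone i]
    exact le_self_add
  have hβ1 : ∀ i, β i ≤ 1 := by
    intro i
    induction i with
    | zero => exact hβ0.le
    | succ i ih => exact (hβanti i).trans ih
  -- sup bound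
  have hsup : ∀ p r z, ν (p + r) z ≤ β p * (C / (r + 1)) := by
    intro p r z
    have e : ν (p + r) = (push P)^[r] (ν p) := by
      simp only [hν]
      rw [add_comm p r, Function.iterate_add_apply]
    rw [e]
    exact (push_iter_mono hPK r z).trans (hC (ν p) r z)
  have hstep : ∀ p r, β (p + r) ≤ β (p + r + 1) + β p * (1 / (16 * (r + 1))) := by
    intro p r
    rw [hone (p + r)]
    gcongr
    calc pair (ν (p + r)) (act DF 1) ≤ ∑' z, (β p * (C / (r + 1))) * act DF 1 z :=
          ENNReal.tsum_le_tsum fun z => mul_le_mul' (hsup p r z) le_rfl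
      _ = (β p * (C / (r + 1))) * ∑' z, ∑' y, DF z y := by
          rw [ENNReal.tsum_mul_left]
          simp only [act, Pi.one_apply, mul_one]
      _ ≤ (β p * (C / (r + 1))) * ε := by (clear * - hε; gcongr)
      _ = β p * ((C * ε) * (r + 1 : ℝ≥0∞)⁻¹) := by rw [div_eq_mul_inv]; ring
      _ ≤ β p * ((1 / 16) * (r + 1 : ℝ≥0∞)⁻¹) := by (clear * - hCε; gcongr)
      _ = β p * (1 / (16 * (r + 1))) := by
          rw [one_div, one_div, ENNReal.mul_inv (by simp) (by simp only [ne_eq, ENNReal.ofNat_ne_top, not_false_eq_true, add_eq_zero, Nat.cast_eq_zero, one_ne_zero, and_false, or_self])]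
  -- decomposition at the last near mark
  set A : ℕ → ℝ≥0∞ := fun j => ∑ z ∈ insert z₀ Λ, ((act N)^[j] 1) z with hA
  have hdec : ∀ m, β m ≤ A m + ∑ i ∈ Finset.range m, (C * Θ / (i + 1)) * A (m - 1 - i) := by
    intro m
    have htel : ∀ i ≤ m, pair (ν i) ((act N)^[m - i] 1) =
        pair (ν 0) ((act N)^[m] 1) +
          ∑ k ∈ Finset.range i, pair (push DN (ν k)) ((act N)^[m - 1 - k] 1) := by
      intro i
      induction i with
      | zero => intro _; simp only [tsub_zero, Finset.range_zero, Finset.sum_empty, add_zero]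
      | succ i ih =>
        intro hi
        rw [Finset.sum_range_succ, ← add_assoc, ← ih (by omega), hνsucc, hP, push_add,
          pair_add_left]
        have e1 : m - (i + 1) = m - 1 - i := by omega
        rw [e1]
        congr 1
        rw [pair_push, ← Function.iterate_succ_apply' (act N)]
        congr 2
        omega
    have h1 := htel m le_rfl
    rw [Nat.sub_self, Function.iterate_zero, id_eq, ← hβpair] at h1
    rw [h1]
    refine add_le_add ?_ (Finset.sum_le_sum fun i hi => ?_)
    · have : pair (ν 0) ((act N)^[m] 1) = ((act N)^[m] 1) z₀ := by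
        simp only [pair]
        rw [tsum_eq_single z₀]
        · simp [hν, δ]
        · intro z hz
          simp [hν, δ, hz]
      rw [this]
      exact Finset.single_le_sum (f := fun z => ((act N)^[m] 1) z) (fun _ _ => by simp)
        (Finset.mem_insert_self z₀ Λ)
    · have h2 : ∀ y, ((act N)^[m - 1 - i] 1) y ≤ A (m - 1 - i) ∨ y ∉ Λ := by
        intro y
        by_cases hy : y ∈ Λ
        · left
          exact Finset.single_le_sum (f := fun z => ((act N)^[m - 1 - i] 1) z)
            (fun _ _ => by simp only [zero_le]) (Finset.mem_insert_of_mem hy)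
        · exact Or.inr hy
      rw [pair_push]
      calc pair (ν i) (act DN ((act N)^[m - 1 - i] 1))
          ≤ pair (fun _ => C / (i + 1)) (fun z => (∑' y, DN z y) * A (m - 1 - i)) := by
            refine pair_mono (fun z => ?_) (fun z => ?_)
            · have := hsup 0 i z
              rw [zero_add, hβ0, one_mul] at this
              exact this
            · simp only [act]
              rw [← ENNReal.tsum_mul_right]
              refine ENNReal.tsum_le_tsum fun y => ?_
              rcases h2 y with h | h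
              · (clear * - h; gcongr)
              · rw [hΛ z y h]; simp only [zero_mul, Std.le_refl]
        _ = (C / (i + 1)) * ((∑' z, ∑' y, DN z y) * A (m - 1 - i)) := by
            simp only [pair]
            rw [ENNReal.tsum_mul_left, ENNReal.tsum_mul_right]
        _ ≤ (C / (i + 1)) * (Θ * A (m - 1 - i)) := by (clear * - hΘ; gcongr)
        _ = (C * Θ / (i + 1)) * A (m - 1 - i) := by
            rw [div_eq_mul_inv, div_eq_mul_inv]; ring
  -- summability
  have hN1 : act N 1 ≤ 1 := by
    intro z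
    simp only [act, Pi.one_apply, mul_one]
    rw [← hK1 z]
    exact ENNReal.tsum_le_tsum fun y => by
      rw [add_assoc]; exact le_self_add
  have hAanti1 : ∀ j, A (j + 1) ≤ A j := by
    intro j
    refine Finset.sum_le_sum fun z _ => ?_
    have : ∀ j, (act N)^[j + 1] 1 ≤ (act N)^[j] 1 := by
      intro j
      induction j with
      | zero => exact hN1
      | succ j ih =>
        have e1 := Function.iterate_succ_apply' (act N) (j + 1) (1 : S → ℝ≥0∞)
        have e2 := Function.iterate_succ_apply' (act N) j (1 : S → ℝ≥0∞)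
        rw [e1]
        conv_rhs => rw [e2]
        exact act_mono ih
    exact this j z
  have hAanti : Antitone A := antitone_nat_of_succ_le hAanti1
  set Sg : ℝ≥0∞ := ∑' j, A j with hSg
  have hSgtop : Sg ≠ ∞ := by
    rw [hSg, hA]
    rw [Summable.tsum_finsetSum fun _ _ => ENNReal.summable]
    rw [ENNReal.sum_ne_top]
    intro z hz
    exact hcon z hz
  have hAle : ∀ j : ℕ, ((j : ℝ≥0∞) + 1) * A j ≤ Sg := by
    intro j
    calc ((j : ℝ≥0∞) + 1) * A j = ∑ i ∈ Finset.range (j + 1), A j := by simp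
      _ ≤ ∑ i ∈ Finset.range (j + 1), A i := by
          refine Finset.sum_le_sum fun i hi => hAanti ?_
          rw [Finset.mem_range] at hi
          omega
      _ ≤ Sg := ENNReal.sum_le_tsum _
  have hAtop : ∀ j, A j ≠ ∞ := fun j =>
    ne_top_of_le_ne_top hSgtop (ENNReal.le_tsum j)
  have hβtop : ∀ j, β j ≠ ∞ := fun j => ne_top_of_le_ne_top ENNReal.one_ne_top (hβ1 j)
  have hCΘ : C * Θ ≠ ∞ := ENNReal.mul_ne_top hCtop hΘtop
  refine numeric (b := fun i => (β i).toReal) (a := fun i => (A i).toReal) (Sg := Sg.toReal)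
    (D := (C * Θ).toReal) ?_ ?_ ?_ ?_ ?_ ?_ ?_ ?_
  · simp [hβ0]
  · intro i; exact ENNReal.toReal_nonneg
  · intro p r
    have h := hstep p r
    have hfin : β p * (1 / (16 * ((r : ℝ≥0∞) + 1))) ≠ ∞ := by
      refine ENNReal.mul_ne_top (hβtop p) ?_
      simp only [one_div, ne_eq, ENNReal.inv_eq_top, mul_eq_zero, OfNat.ofNat_ne_zero, add_eq_zero, Nat.cast_eq_zero, one_ne_zero, and_false, or_self, not_false_eq_true]
    have h2 := ENNReal.toReal_mono (ENNReal.add_ne_top.2 ⟨hβtop _, hfin⟩) h
    rw [ENNReal.toReal_add (hβtop _) hfin, ENNReal.toReal_mul] at h2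
    refine h2.trans (le_of_eq ?_)
    congr 1
    rw [ENNReal.toReal_div, ENNReal.toReal_mul, ENNReal.toReal_add (by simp) (by simp)]
    have hr : (0 : ℝ) < (r : ℝ) + 1 := by (clear * -; positivity)
    simp only [ENNReal.toReal_one, ENNReal.toReal_natCast, ENNReal.toReal_ofNat]
    (clear * -; field_simp)
  · intro j; exact ENNReal.toReal_nonneg
  · intro j
    have h := ENNReal.toReal_mono hSgtop (hAle j)
    rw [ENNReal.toReal_mul, ENNReal.toReal_add (by simp) (by simp)] at h
    simpa only [ge_iff_le, ENNReal.toReal_natCast, ENNReal.toReal_one] using h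
  · intro m
    rw [← ENNReal.toReal_sum fun j _ => hAtop j]
    exact ENNReal.toReal_mono hSgtop (ENNReal.sum_le_tsum _)
  · exact ENNReal.toReal_nonneg
  · intro m
    have h := hdec m
    have hfin : ∀ i ∈ Finset.range m, (C * Θ / ((i : ℝ≥0∞) + 1)) * A (m - 1 - i) ≠ ∞ := by
      intro i _
      refine ENNReal.mul_ne_top ?_ (hAtop _)
      exact ENNReal.div_ne_top hCΘ (by simp only [ne_eq, add_eq_zero, Nat.cast_eq_zero, one_ne_zero, and_false, not_false_eq_true])
    have h2 := ENNReal.toReal_mono (ENNReal.add_ne_top.2 ⟨hAtop m, ENNReal.sum_ne_top.2 hfin⟩) h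
    rw [ENNReal.toReal_add (hAtop m) (ENNReal.sum_ne_top.2 hfin), ENNReal.toReal_sum hfin] at h2
    refine h2.trans (le_of_eq ?_)
    congr 1
    refine Finset.sum_congr rfl fun i _ => ?_
    rw [ENNReal.toReal_mul, ENNReal.toReal_div, ENNReal.toReal_add (by simp) (by simp)]
    simp only [ENNReal.toReal_mul, ENNReal.toReal_natCast, ENNReal.toReal_one]

end main

end Vale.Agent.P147
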