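import Vale.Agent.P147.MathlibUsed
import Vale.Agent.P147.Defs

open MeasureTheory ProbabilityTheory
open scoped ENNReal

namespace Vale.Agent.P147

variable {d : ℕ}

/-- Displacement of a list of steps. -/
def dsp (l : List (Dir d)) : Site d := (l.map vec).sum

@[simp] lemma dsp_nil : dsp ([] : List (Dir d)) = 0 := rfl

@[simp] lemma dsp_cons (u : Dir d) (l : List (Dir d)) : dsp (u :: l) = vec u + dsp l := by
  simp [dsp]

@[simp] lemma dsp_append (a b : List (Dir d)) : dsp (a ++ b) = dsp a + dsp b := by
  simp [dsp]

/-- Quenched weight of a list of steps, from `x`. -/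
noncomputable def qw (ω : Env d) : Site d → List (Dir d) → ℝ≥0∞
  | _, [] => 1
  | x, u :: l => ENNReal.ofReal ((ω x).1 u) * qw ω (x + vec u) l

@[simp] lemma qw_nil (ω : Env d) (x : Site d) : qw ω x [] = 1 := rfl

@[simp] lemma qw_cons (ω : Env d) (x : Site d) (u : Dir d) (l : List (Dir d)) :
    qw ω x (u :: l) = ENNReal.ofReal ((ω x).1 u) * qw ω (x + vec u) l := rfl

lemma qw_append (ω : Env d) (x : Site d) (a b : List (Dir d)) :
    qw ω x (a ++ b) = qw ω x a * qw ω (x + dsp a) b := by
  induction a generalizing x with
  | nil => simp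
  | cons u a ih => simp [ih, mul_assoc, add_assoc]

lemma row_le_one (p : Row d) (u : Dir d) : p.1 u ≤ 1 := by
  have h := p.2
  calc p.1 u ≤ ∑ v, p.1 v := Finset.single_le_sum (fun v _ => h.1 v) (Finset.mem_univ u)
    _ = 1 := h.2

lemma qw_le_one (ω : Env d) (x : Site d) (l : List (Dir d)) : qw ω x l ≤ 1 := by
  induction l generalizing x with
  | nil => simp
  | cons u l ih =>
    rw [qw_cons]
    calc _ ≤ (1 : ℝ≥0∞) * 1 := by
          gcongr
          · exact ENNReal.ofReal_le_one.2 (row_le_one _ _)
          · exact ih _
      _ = 1 := one_mul 1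

lemma measurable_qw (x : Site d) (l : List (Dir d)) : Measurable (fun ω : Env d => qw ω x l) := by
  induction l generalizing x with
  | nil => simp
  | cons u l ih =>
    simp only [qw_cons]
    refine Measurable.mul ?_ (ih _)
    exact ENNReal.measurable_ofReal.comp
      ((measurable_pi_apply u).comp (measurable_subtype_coe.comp (measurable_pi_apply x)))

/-- Exit sites of a list of steps from `x`: the sites where a step is made. -/
def exits : Site d → List (Dir d) → Finset (Site d)
  | _, [] => ∅
  | x, u :: l => insert x (exits (x + vec u) l)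

@[simp] lemma exits_nil (x : Site d) : exits x [] = ∅ := rfl

@[simp] lemma exits_cons (x : Site d) (u : Dir d) (l : List (Dir d)) :
    exits x (u :: l) = insert x (exits (x + vec u) l) := rfl

lemma exits_append (x : Site d) (a b : List (Dir d)) :
    exits x (a ++ b) = exits x a ∪ exits (x + dsp a) b := by
  induction a generalizing x with
  | nil => simp
  | cons u a ih => simp [ih, add_assoc]

lemma mem_exits {x y : Site d} {l : List (Dir d)} :
    y ∈ exits x l ↔ ∃ a b, l = a ++ b ∧ b ≠ [] ∧ y = x + dsp a := by
  induction l generalizing x with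
  | nil => simp
  | cons u l ih =>
    rw [exits_cons, Finset.mem_insert, ih]
    constructor
    · rintro (rfl | ⟨a, b, rfl, hb, rfl⟩)
      · exact ⟨[], u :: l, by simp, by simp, by simp⟩
      · exact ⟨u :: a, b, by simp, hb, by simp [add_assoc]⟩
    · rintro ⟨a, b, h, hb, rfl⟩
      cases a with
      | nil => left; simp
      | cons v a =>
        right
        simp only [List.cons_append, List.cons.injEq] at h
        obtain ⟨rfl, h⟩ := h
        exact ⟨a, b, h, hb, by simp [add_assoc]⟩

lemma exits_add (x z : Site d) (l : List (Dir d)) :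
    exits (x + z) l = (exits x l).image (· + z) := by
  ext y
  simp only [Finset.mem_image, mem_exits]
  constructor
  · rintro ⟨a, b, h, hb, rfl⟩
    exact ⟨x + dsp a, ⟨a, b, h, hb, rfl⟩, by abel⟩
  · rintro ⟨_, ⟨a, b, h, hb, rfl⟩, rfl⟩
    exact ⟨a, b, h, hb, by abel⟩

/-- The event that the path starts at `x` and makes the steps `l` first. -/
def cyl (x : Site d) (l : List (Dir d)) : Set (ℕ → Site d) :=
  {X | ∀ n ≤ l.length, X n = x + dsp (l.take n)}

lemma measurableSet_cyl (x : Site d) (l : List (Dir d)) : MeasurableSet (cyl x l) := by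
  have : cyl x l = ⋂ n : ℕ, ⋂ _ : n ≤ l.length, (fun X : ℕ → Site d => X n) ⁻¹'
      {x + dsp (l.take n)} := by
    ext X; simp [cyl]
  rw [this]
  refine MeasurableSet.iInter fun n => MeasurableSet.iInter fun _ => ?_
  exact measurable_pi_apply n (MeasurableSet.singleton _)

lemma vec_injective : Function.Injective (vec : Dir d → Site d) := by
  rintro ⟨i, s⟩ ⟨j, t⟩ h
  have hi := congrFun h i
  have hj := congrFun h j
  simp only [vec] at hi hj
  rcases eq_or_ne i j with rfl | hij
  · simp only [Pi.single_eq_same] at hi
    have : s = t := by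
      cases s <;> cases t <;> simp_all
    rw [this]
  · rw [Pi.single_eq_same, Pi.single_eq_of_ne hij] at hi
    cases s <;> simp at hi

lemma stepLaw_vec (ω : Env d) (x : Site d) (u : Dir d) :
    stepLaw ω x {x + vec u} = ENNReal.ofReal ((ω x).1 u) := by
  simp only [stepLaw, Measure.coe_finsetSum, Finset.sum_apply, Measure.coe_smul, Pi.smul_apply,
    smul_eq_mul]
  rw [Finset.sum_eq_single u]
  · simp
  · intro v _ hv
    rw [Measure.dirac_apply' _ (MeasurableSet.singleton _), Set.indicator_of_notMem, mul_zero]
    simp only [Set.mem_singleton_iff, add_right_inj]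
    exact fun h => hv (vec_injective h)
  · simp

instance (ω : Env d) (x : Site d) : IsProbabilityMeasure (quenched ω x) := by
  unfold quenched
  infer_instance

/-- The event that the first `n + 1` positions are given by `g`. -/
def pc (n : ℕ) (g : ℕ → Site d) : Set (ℕ → Site d) := {X | ∀ i ≤ n, X i = g i}

lemma measurableSet_pc (n : ℕ) (g : ℕ → Site d) : MeasurableSet (pc n g) := by
  have : pc n g = ⋂ i : ℕ, ⋂ _ : i ≤ n, (fun X : ℕ → Site d => X i) ⁻¹' {g i} := by
    ext X; simp [pc]
  rw [this]
  refine MeasurableSet.iInter fun n => MeasurableSet.iInter fun _ => ?_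
  exact measurable_pi_apply n (MeasurableSet.singleton _)

lemma frestrictLe_preimage (n : ℕ) (g : ℕ → Site d) :
    Preorder.frestrictLe (π := fun _ : ℕ => Site d) n ⁻¹' {fun i : Finset.Iic n => g i} =
      pc n g := by
  ext X
  simp only [Set.mem_preimage, Set.mem_singleton_iff, pc, Set.mem_ofPred_eq]
  constructor
  · intro h i hi
    exact congrFun h ⟨i, by simpa using hi⟩
  · intro h
    funext i
    have := i.2
    simp only [Finset.mem_Iic] at this
    exact h i this

lemma quenched_pc_succ (ω : Env d) (x : Site d) (n : ℕ) (g : ℕ → Site d) :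
    quenched ω x (pc (n + 1) g) = quenched ω x (pc n g) * stepLaw ω (g n) {g (n + 1)} := by
  have key := Kernel.map_frestrictLe_trajMeasure_compProd_eq_map_trajMeasure
    (X := fun _ : ℕ => Site d) (μ₀ := Measure.dirac x)
    (κ := fun n => (stepKernel ω).comap (fun h : (i : Finset.Iic n) → Site d => h ⟨n, by simp⟩)
      (measurable_pi_apply _)) (a := n)
  set h0 : (i : Finset.Iic n) → Site d := fun i => g i with hh0
  have hS : MeasurableSet ({h0} : Set ((i : Finset.Iic n) → Site d)) := MeasurableSet.singleton _
  have hy : MeasurableSet ({g (n + 1)} : Set (Site d)) := MeasurableSet.singleton _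
  have key2 := congrArg (fun m => m ({h0} ×ˢ {g (n + 1)})) key
  beta_reduce at key2
  have hpre := frestrictLe_preimage n g
  rw [← hh0] at hpre
  rw [Measure.compProd_apply_prod hS hy, Measure.map_apply (by fun_prop) (hS.prod hy)] at key2
  have e1 : (fun X : ℕ → Site d => (Preorder.frestrictLe (π := fun _ : ℕ => Site d) n X,
      X (n + 1))) ⁻¹' ({h0} ×ˢ {g (n + 1)}) = pc (n + 1) g := by
    have : (fun X : ℕ → Site d => (Preorder.frestrictLe (π := fun _ : ℕ => Site d) n X,
      X (n + 1))) ⁻¹' ({h0} ×ˢ {g (n + 1)}) = pc n g ∩ {X | X (n + 1) = g (n + 1)} := by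
      rw [← hpre]; rfl
    rw [this]
    ext X
    simp only [pc, Set.mem_inter_iff, Set.mem_ofPred_eq]
    constructor
    · rintro ⟨h1, h2⟩ i hi
      rcases Nat.lt_or_ge n i with h | h
      · have : i = n + 1 := by omega
        subst this; exact h2
      · exact h1 i h
    · intro h
      exact ⟨fun i hi => h i (by omega), h _ le_rfl⟩
  rw [e1] at key2
  have e2 : quenched ω x (pc (n + 1) g) = _ := key2.symm
  rw [e2]
  rw [lintegral_singleton, Measure.map_apply (by fun_prop) hS, hpre, Kernel.comap_apply]
  rw [mul_comm]
  rfl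

lemma quenched_start (ω : Env d) (x : Site d) (y : Site d) :
    quenched ω x {X | X 0 = y} = Set.indicator {y} 1 x := by
  have hmap : (quenched ω x).map (Preorder.frestrictLe (π := fun _ : ℕ => Site d) 0) =
      (Measure.dirac x).map
        (MeasurableEquiv.piUnique (fun _ : Finset.Iic 0 => Site d)).symm := by
    unfold quenched
    rw [Kernel.trajMeasure, Measure.map_comp _ _ (by fun_prop), Kernel.traj_map_frestrictLe,
      Kernel.partialTraj_self]
    simp
  have hm : Measurable (fun h : (i : Finset.Iic 0) → Site d => h ⟨0, by simp⟩) :=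
    measurable_pi_apply _
  have hS : MeasurableSet {h : (i : Finset.Iic 0) → Site d | h ⟨0, by simp⟩ = y} :=
    hm (MeasurableSet.singleton y)
  have h1 := congrArg (fun m => m {h : (i : Finset.Iic 0) → Site d | h ⟨0, by simp⟩ = y}) hmap
  beta_reduce at h1
  rw [Measure.map_apply (by fun_prop) hS, Measure.map_apply (by fun_prop) hS] at h1
  refine Eq.trans h1 ?_
  rw [Measure.dirac_apply' _ (by measurability)]
  rfl

lemma quenched_start_self (ω : Env d) (x : Site d) : quenched ω x {X | X 0 = x} = 1 := by
  rw [quenched_start]; simp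

lemma measurable_stepLaw (x y : Site d) : Measurable (fun ω : Env d => stepLaw ω x {y}) := by
  simp only [stepLaw, Measure.coe_finsetSum, Finset.sum_apply, Measure.coe_smul, Pi.smul_apply,
    smul_eq_mul]
  refine Finset.measurable_sum _ fun u _ => Measurable.mul_const ?_ _
  exact ENNReal.measurable_ofReal.comp
      ((measurable_pi_apply u).comp (measurable_subtype_coe.comp (measurable_pi_apply x)))

lemma measurable_quenched_pc (x : Site d) (n : ℕ) (g : ℕ → Site d) :
    Measurable (fun ω : Env d => quenched ω x (pc n g)) := by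
  induction n with
  | zero =>
    have : pc 0 g = {X | X 0 = g 0} := by ext X; simp [pc]
    simp only [this, quenched_start]
    exact measurable_const
  | succ n ih =>
    simp only [quenched_pc_succ]
    exact ih.mul (measurable_stepLaw _ _)

lemma measurable_quenched (x : Site d) : Measurable (fun ω : Env d => quenched ω x) := by
  refine Measurable.measure_of_isPiSystem_of_isProbabilityMeasure
    (S := MeasureTheory.measurableCylinders (fun _ : ℕ => Site d))
    (MeasureTheory.generateFrom_measurableCylinders).symm
    MeasureTheory.isPiSystem_measurableCylinders ?_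
  intro s hs
  rw [MeasureTheory.mem_measurableCylinders] at hs
  obtain ⟨I, T, hT, rfl⟩ := hs
  set n := I.sup id with hn
  have hsub : ∀ i ∈ I, i ∈ Finset.Iic n := fun i hi => by
    simp only [Finset.mem_Iic]
    exact Finset.le_sup (f := id) hi
  set T' : Set ((i : Finset.Iic n) → Site d) :=
    {g | (fun i : I => g ⟨i, hsub i i.2⟩) ∈ T} with hT'
  have e : cylinder I T = Preorder.frestrictLe (π := fun _ : ℕ => Site d) n ⁻¹' T' := by
    ext X
    simp only [cylinder, Set.mem_preimage, hT', Set.mem_ofPred_eq]
    rfl
  rw [e]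
  have e2 : Preorder.frestrictLe (π := fun _ : ℕ => Site d) n ⁻¹' T' =
      ⋃ g : T', Preorder.frestrictLe (π := fun _ : ℕ => Site d) n ⁻¹' {g.1} := by
    ext X; simp
  have hm : ∀ g : (i : Finset.Iic n) → Site d,
      Preorder.frestrictLe (π := fun _ : ℕ => Site d) n ⁻¹' {g} =
        pc n (fun i => if hi : i ≤ n then g ⟨i, by simpa using hi⟩ else 0) := by
    intro g
    rw [← frestrictLe_preimage]
    congr 2
    funext i
    have := i.2
    simp only [Finset.mem_Iic] at this
    simp [this]
  have e3 : ∀ ω : Env d, quenched ω x (Preorder.frestrictLe (π := fun _ : ℕ => Site d) n ⁻¹' T') =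
      ∑' g : T', quenched ω x
        (pc n (fun i => if hi : i ≤ n then g.1 ⟨i, by simpa using hi⟩ else 0)) := by
    intro ω
    rw [e2, measure_iUnion]
    · simp only [hm]
    · intro g g' hgg
      refine Disjoint.preimage _ ?_
      rw [Set.disjoint_singleton]
      exact fun h => hgg (Subtype.ext h)
    · intro g
      rw [hm]
      exact measurableSet_pc _ _
  simp only [e3]
  exact Measurable.tsum fun g => measurable_quenched_pc _ _ _

lemma measurable_quenched_apply (x : Site d) {A : Set (ℕ → Site d)} (hA : MeasurableSet A) :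
    Measurable (fun ω : Env d => quenched ω x A) :=
  (Measure.measurable_coe hA).comp (measurable_quenched x)

lemma cyl_eq_pc (x : Site d) (l : List (Dir d)) :
    cyl x l = pc l.length (fun n => x + dsp (l.take n)) := rfl

lemma quenched_cyl_append_singleton (ω : Env d) (x : Site d) (l : List (Dir d)) (u : Dir d) :
    quenched ω x (cyl x (l ++ [u])) =
      quenched ω x (cyl x l) * ENNReal.ofReal ((ω (x + dsp l)).1 u) := by
  have h1 : cyl x (l ++ [u]) = pc (l.length + 1) (fun n => x + dsp ((l ++ [u]).take n)) := by
    rw [cyl_eq_pc]; simp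
  have h2 : cyl x l = pc l.length (fun n => x + dsp ((l ++ [u]).take n)) := by
    ext X
    simp only [cyl, pc, Set.mem_ofPred_eq]
    refine forall_congr' fun n => forall_congr' fun hn => ?_
    rw [List.take_append_of_le_length hn]
  rw [h1, quenched_pc_succ, ← h2, ← stepLaw_vec]
  have h3 : dsp ((l ++ [u]).take l.length) = dsp l := by simp
  have h4 : dsp ((l ++ [u]).take (l.length + 1)) = dsp l + vec u := by
    rw [List.take_of_length_le (by simp)]; simp
  rw [h3, h4, add_assoc]

lemma quenched_cyl (ω : Env d) (x : Site d) (l : List (Dir d)) :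
    quenched ω x (cyl x l) = qw ω x l := by
  induction l using List.reverseRecOn with
  | nil =>
    have : cyl x ([] : List (Dir d)) = {X | X 0 = x} := by
      ext X; simp [cyl]
    rw [this, qw_nil, quenched_start_self]
  | append_singleton l u ih =>
    rw [quenched_cyl_append_singleton, ih, qw_append]
    simp

end Vale.Agent.P147
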